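/-
helper66 — row 82 (S0109), package (D): STATEMENT of the limit passage (proof in progress in
`Main.lean`; this file only records the target so that the squad can check the interface).
-/
import Crest.Agent.Helper66.OT.Interface

set_option autoImplicit false
open MeasureTheory
open scoped ENNReal NNReal
open Crest.AnalysisR.OT

namespace Crest.Agent.Helper66.OT

/-- TARGET (in progress): S0109 from (DT) and (A). -/
theorem s0109_of_discrete_stmt
    (d : ℕ) (K : Set (EuclideanSpace ℝ (Fin d))) (hKc : IsCompact K) (hKv : Convex ℝ K)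
    (hKi : (interior K).Nonempty) (Y : Set (EuclideanSpace ℝ (Fin d))) (hYc : IsCompact Y)
    (hYn : Y.Nonempty)
    (hA : ∀ M : ℝ, 0 ≤ M → ∃ C : ℝ, 0 ≤ C ∧ InterpA K M C)
    (hDT : ∀ M : ℝ, 0 ≤ M → ∃ C₁ : ℝ, 0 ≤ C₁ ∧ ∃ pot lag, DiscreteTheory K M C₁ pot lag) :
    ∃ C : ℝ≥0, ∀ μ ν : Measure (EuclideanSpace ℝ (Fin d)), IsProbabilityOn Y μ →
      IsProbabilityOn Y ν →
      ∀ Tμ Tν : EuclideanSpace ℝ (Fin d) → EuclideanSpace ℝ (Fin d),
        IsOptimalMap (uniformProbOn K) μ Tμ → IsOptimalMap (uniformProbOn K) ν Tν →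
        ∀ π : Measure (EuclideanSpace ℝ (Fin d) × EuclideanSpace ℝ (Fin d)),
          IsPairCoupling μ ν π →
          ∫⁻ x, ‖Tμ x - Tν x‖ₑ ^ 2 ∂(uniformProbOn K) ≤ C * quadCost π ^ (1 / 3 : ℝ) := by
  sorry

end Crest.Agent.Helper66.OT
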