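/-
helper66 — row 82 (S0109), package (D): STANDALONE sub-lemmas offered to free hands
(INTERFACE ONLY, sorried; never import this file from a finished file — copy the statement into
your own file `Crest/Agent/<You>/OT/<Name>.lean`, SAME NAME, namespace `Crest.Agent.Helper66.OT`).

* D1 `optimal_is_subgradient`               (helper8)  : the only use of `IsOptimalMap`.
* D2 `lipschitz_sup_lt_of_sq_integral_lt`   (helper26) : sup-norm from L²-norm, Lipschitz, convex body.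
* D3 `map_limit_eq`                         (helper71) : push-forward passes to an a.e. limit.
* D4 `exists_ae_limit_of_sq_rate`           (helper71) : a.e. limit from a summable L² rate.
* D5 `final_conversion`                     (helper44) : real L² bound ⇒ the `ℝ≥0∞` statement.
* D6 `coupling_prob`, `coupling_ae_mem`, `coupling_map_fst`, `coupling_map_snd`,
     `cross_cost_le`, `pair_cost_le`        (helper59) : coupling plumbing.
-/
import Crest.Agent.Helper66.OT.Interface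

set_option autoImplicit false
open MeasureTheory Filter Topology
open scoped ENNReal NNReal
open Crest.AnalysisR.OT

namespace Crest.Agent.Helper66.OT.SubSpec

/-- **D1 (Fenchel–Young step).** If `S` pushes `ρ = uniformProbOn K` to `μ` and is a `ρ`-a.e.
subgradient selection (relative to `K`) of a potential `φ` continuous on `K`, then EVERY
quadratic optimal map `T` from `ρ` to `μ` is a `ρ`-a.e. subgradient selection of `φ` as well.

Proof sketch: `φ*(y) := sup_{x ∈ K} (⟪x, y⟫ - φ x)` (finite, `R_K`-Lipschitz, so measurable and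
bounded on `Y`); `φ x + φ* y ≥ ⟪x, y⟫` on `K`, with equality at `y = S x` a.e.;
`∫ φ*(T x) dρ = ∫ φ* dμ = ∫ φ*(S x) dρ`, `∫ ‖T x‖² dρ = ∫ ‖y‖² dμ = ∫ ‖S x‖² dρ`;
optimality of `T` against `S` gives `∫ ⟪x, T x⟫ dρ ≥ ∫ ⟪x, S x⟫ dρ`; hence the nonnegative
function `φ x + φ*(T x) - ⟪x, T x⟫` has integral `≤ 0`, so it vanishes a.e. -/
theorem optimal_is_subgradient {d : ℕ} (K : Set (EuclideanSpace ℝ (Fin d))) (hKc : IsCompact K)
    (hKv : Convex ℝ K) (hKi : (interior K).Nonempty)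
    (Y : Set (EuclideanSpace ℝ (Fin d))) (hYc : IsCompact Y)
    (μ : Measure (EuclideanSpace ℝ (Fin d))) (hμ : IsProbabilityOn Y μ)
    (φ : EuclideanSpace ℝ (Fin d) → ℝ) (hφ : ContinuousOn φ K)
    (S T : EuclideanSpace ℝ (Fin d) → EuclideanSpace ℝ (Fin d)) (hS : Measurable S)
    (hSpush : (uniformProbOn K).map S = μ)
    (hSsub : ∀ᵐ x ∂(uniformProbOn K), ∀ z ∈ K, φ x + inner ℝ (S x) (z - x) ≤ φ z)
    (hT : IsOptimalMap (uniformProbOn K) μ T) :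
    ∀ᵐ x ∂(uniformProbOn K), ∀ z ∈ K, φ x + inner ℝ (T x) (z - x) ≤ φ z := by
  sorry

/-- **D2 (sup from L²).** On a convex body, an `L`-Lipschitz function with small `L²(ρ)`-norm is
uniformly small.

Proof sketch: if `|g x₁| ≥ η` then `|g| ≥ η/2` on `homothety x₁ t '' K ⊆ K`,
`t = min 1 (η / (2 L diam K))`, whose `ρ`-measure is `t ^ d`; so `∫ g² dρ ≥ (η/2)² t^d =: δ`. -/
theorem lipschitz_sup_lt_of_sq_integral_lt {d : ℕ} (K : Set (EuclideanSpace ℝ (Fin d)))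
    (hKc : IsCompact K) (hKv : Convex ℝ K) (hKi : (interior K).Nonempty) (L : ℝ) (hL : 0 < L)
    (η : ℝ) (hη : 0 < η) :
    ∃ δ : ℝ, 0 < δ ∧ ∀ g : EuclideanSpace ℝ (Fin d) → ℝ,
      (∀ x ∈ K, ∀ z ∈ K, |g x - g z| ≤ L * ‖x - z‖) →
      ∫ x, (g x) ^ 2 ∂(uniformProbOn K) < δ → ∀ x ∈ K, |g x| < η := by
  sorry

/-- **D3 (push-forward passes to an a.e. limit).** `ρ.map (S n) = μ.map (q n)`, `q n → id`
uniformly on a set `Y` carrying `μ`, `S n → S'` `ρ`-a.e. Then `ρ.map S' = μ`.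
(Test against bounded continuous functions: `ext_of_forall_integral_eq_of_IsFiniteMeasure`,
`integral_map`, dominated convergence on both sides.) -/
theorem map_limit_eq {d : ℕ} (ρ μ : Measure (EuclideanSpace ℝ (Fin d))) [IsFiniteMeasure ρ]
    [IsFiniteMeasure μ] (Y : Set (EuclideanSpace ℝ (Fin d))) (hμY : μ Yᶜ = 0)
    (q : ℕ → EuclideanSpace ℝ (Fin d) → EuclideanSpace ℝ (Fin d)) (hq : ∀ n, Measurable (q n))
    (ε : ℕ → ℝ) (hε : Tendsto ε atTop (𝓝 0)) (hqε : ∀ n, ∀ y ∈ Y, dist (q n y) y ≤ ε n)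
    (S : ℕ → EuclideanSpace ℝ (Fin d) → EuclideanSpace ℝ (Fin d)) (hS : ∀ n, Measurable (S n))
    (hpush : ∀ n, ρ.map (S n) = μ.map (q n))
    (S' : EuclideanSpace ℝ (Fin d) → EuclideanSpace ℝ (Fin d)) (hS' : Measurable S')
    (hlim : ∀ᵐ x ∂ρ, Tendsto (fun n => S n x) atTop (𝓝 (S' x))) :
    ρ.map S' = μ := by
  sorry

/-- **D4 (a.e. limit from a summable L² rate).** (`ae_tendsto_of_cauchy_eLpNorm` with `p = 2`,
`B N = ofReal ((√a + 1) * (1/2)^N)`, then `exists_stronglyMeasurable_limit_of_tendsto_ae`.) -/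
theorem exists_ae_limit_of_sq_rate {d : ℕ} (ρ : Measure (EuclideanSpace ℝ (Fin d)))
    [IsProbabilityMeasure ρ]
    (S : ℕ → EuclideanSpace ℝ (Fin d) → EuclideanSpace ℝ (Fin d)) (hS : ∀ n, Measurable (S n))
    (M : ℝ) (hb : ∀ n, ∀ᵐ x ∂ρ, ‖S n x‖ ≤ M) (a : ℝ) (ha : 0 ≤ a)
    (hrate : ∀ N n m : ℕ, N ≤ n → N ≤ m → ∫ x, ‖S n x - S m x‖ ^ 2 ∂ρ ≤ a * (1 / 4 : ℝ) ^ N) :
    ∃ S' : EuclideanSpace ℝ (Fin d) → EuclideanSpace ℝ (Fin d), Measurable S' ∧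
      ∀ᵐ x ∂ρ, Tendsto (fun n => S n x) atTop (𝓝 (S' x)) := by
  sorry

/-- **D5 (final conversion).** From the real-valued bound to the `ℝ≥0∞` statement of S0109.
(`Tμ x, Tν x ∈ Y` `ρ`-a.e., so `‖Tμ - Tν‖² ≤ (2M)²` is integrable; `π` is a probability measure
carried by `Y ×ˢ Y`, so `quadCost π = ofReal (∫ ‖p.1 - p.2‖² dπ)`.) -/
theorem final_conversion {d : ℕ} (K : Set (EuclideanSpace ℝ (Fin d))) (hKc : IsCompact K)
    (hKi : (interior K).Nonempty) (Y : Set (EuclideanSpace ℝ (Fin d))) (hYc : IsCompact Y)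
    (M : ℝ) (hM : ∀ y ∈ Y, ‖y‖ ≤ M) (a : ℝ) (ha : 0 ≤ a)
    (μ ν : Measure (EuclideanSpace ℝ (Fin d))) (hμ : IsProbabilityOn Y μ)
    (hν : IsProbabilityOn Y ν)
    (Tμ Tν : EuclideanSpace ℝ (Fin d) → EuclideanSpace ℝ (Fin d)) (hTμ : Measurable Tμ)
    (hTν : Measurable Tν) (hpμ : (uniformProbOn K).map Tμ = μ)
    (hpν : (uniformProbOn K).map Tν = ν)
    (π : Measure (EuclideanSpace ℝ (Fin d) × EuclideanSpace ℝ (Fin d)))
    (hπ : IsPairCoupling μ ν π)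
    (hreal : ∫ x in K, ‖Tμ x - Tν x‖ ^ 2 ≤ a * (∫ p, ‖p.1 - p.2‖ ^ 2 ∂π) ^ (1 / 3 : ℝ)) :
    ∫⁻ x, ‖Tμ x - Tν x‖ₑ ^ 2 ∂(uniformProbOn K)
      ≤ (Real.toNNReal ((volume K).toReal⁻¹ * a) : ℝ≥0∞) * quadCost π ^ (1 / 3 : ℝ) := by
  sorry

/-! ### D6: coupling plumbing -/

theorem coupling_prob {d : ℕ} (μ ν : Measure (EuclideanSpace ℝ (Fin d)))
    [IsProbabilityMeasure μ]
    (π : Measure (EuclideanSpace ℝ (Fin d) × EuclideanSpace ℝ (Fin d)))
    (hπ : IsPairCoupling μ ν π) : IsProbabilityMeasure π := by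
  sorry

theorem coupling_ae_mem {d : ℕ} (Y : Set (EuclideanSpace ℝ (Fin d))) (hYm : MeasurableSet Y)
    (μ ν : Measure (EuclideanSpace ℝ (Fin d))) (hμY : μ Yᶜ = 0) (hνY : ν Yᶜ = 0)
    (π : Measure (EuclideanSpace ℝ (Fin d) × EuclideanSpace ℝ (Fin d)))
    (hπ : IsPairCoupling μ ν π) : ∀ᵐ p ∂π, p.1 ∈ Y ∧ p.2 ∈ Y := by
  sorry

theorem coupling_map_fst {d : ℕ} (μ ν : Measure (EuclideanSpace ℝ (Fin d)))
    (π : Measure (EuclideanSpace ℝ (Fin d) × EuclideanSpace ℝ (Fin d)))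
    (hπ : IsPairCoupling μ ν π)
    (q : EuclideanSpace ℝ (Fin d) → EuclideanSpace ℝ (Fin d)) (hq : Measurable q) :
    π.map (fun p => q p.1) = μ.map q := by
  sorry

theorem coupling_map_snd {d : ℕ} (μ ν : Measure (EuclideanSpace ℝ (Fin d)))
    (π : Measure (EuclideanSpace ℝ (Fin d) × EuclideanSpace ℝ (Fin d)))
    (hπ : IsPairCoupling μ ν π)
    (q : EuclideanSpace ℝ (Fin d) → EuclideanSpace ℝ (Fin d)) (hq : Measurable q) :
    π.map (fun p => q p.2) = ν.map q := by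
  sorry

/-- Two quantisers with errors `ε`, `ε'` on `Y` are `(ε + ε')`-close in `L²(μ)`. -/
theorem cross_cost_le {d : ℕ} (μ : Measure (EuclideanSpace ℝ (Fin d))) [IsProbabilityMeasure μ]
    (Y : Set (EuclideanSpace ℝ (Fin d))) (hμY : μ Yᶜ = 0)
    (q q' : SimpleFunc (EuclideanSpace ℝ (Fin d)) (EuclideanSpace ℝ (Fin d))) (ε ε' : ℝ)
    (hε : 0 ≤ ε) (hε' : 0 ≤ ε') (hq : ∀ y ∈ Y, dist (q y) y ≤ ε)
    (hq' : ∀ y ∈ Y, dist (q' y) y ≤ ε') :
    ∫ y, ‖q y - q' y‖ ^ 2 ∂μ ≤ (ε + ε') ^ 2 := by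
  sorry

/-- Quantising both marginals of a coupling increases the cost by at most `8 M ε + 4 ε²`. -/
theorem pair_cost_le {d : ℕ} (Y : Set (EuclideanSpace ℝ (Fin d))) (hYm : MeasurableSet Y)
    (M : ℝ) (hM : ∀ y ∈ Y, ‖y‖ ≤ M)
    (μ ν : Measure (EuclideanSpace ℝ (Fin d))) [IsProbabilityMeasure μ] (hμY : μ Yᶜ = 0)
    (hνY : ν Yᶜ = 0)
    (π : Measure (EuclideanSpace ℝ (Fin d) × EuclideanSpace ℝ (Fin d)))
    (hπ : IsPairCoupling μ ν π)
    (q : SimpleFunc (EuclideanSpace ℝ (Fin d)) (EuclideanSpace ℝ (Fin d))) (ε : ℝ) (hε : 0 ≤ ε)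
    (hq : ∀ y ∈ Y, dist (q y) y ≤ ε) :
    ∫ p, ‖q p.1 - q p.2‖ ^ 2 ∂π ≤ ∫ p, ‖p.1 - p.2‖ ^ 2 ∂π + 8 * M * ε + 4 * ε ^ 2 := by
  sorry

end Crest.Agent.Helper66.OT.SubSpec
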